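import Mathlib
import Vale.Agent.Lib.P057.Asymp4

/-- For every `ε > 0` and all large `N` there is a subset of `{1, …, N}` with no 4-term arithmetic
progression and with at least `N * exp (-(2 * √(2 * log (9 / 5)) + ε) * √(log N))` elements. -/
theorem Vale.Agent.Results.P057.R4LowerBound.result (ε : ℝ) (hε : 0 < ε) :
    ∀ᶠ N : ℕ in Filter.atTop, ∃ A : Finset ℕ,
      A ⊆ Finset.Icc 1 N ∧
      (∀ a d : ℕ, 0 < d → ¬ ∀ i : ℕ, i < 4 → a + i * d ∈ A) ∧
      (N : ℝ) * Real.exp (-(2 * √(2 * Real.log (9 / 5)) + ε) * √(Real.log N)) ≤ A.card :=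
  Vale.Agent.Lib.P057.main4 ε hε
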