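import Mathlib
import Vale.Agent.Lib.P057.Asymp8

/-- For every `ε > 0` and all large `N` there is a subset of `{1, …, N}` with no 8-term arithmetic
progression and with at least `N * exp (-(3 * (4 * log 2 * log 3) ^ (1/3) + ε) * (log N) ^ (1/3))`
elements. -/
theorem Vale.Agent.Results.P057.R8LowerBound.result (ε : ℝ) (hε : 0 < ε) :
    ∀ᶠ N : ℕ in Filter.atTop, ∃ A : Finset ℕ,
      A ⊆ Finset.Icc 1 N ∧
      (∀ a d : ℕ, 0 < d → ¬ ∀ i : ℕ, i < 8 → a + i * d ∈ A) ∧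
      (N : ℝ) * Real.exp (-(3 * (4 * Real.log 2 * Real.log 3) ^ (1 / 3 : ℝ) + ε) *
        (Real.log N) ^ (1 / 3 : ℝ)) ≤ A.card :=
  Vale.Agent.Lib.P057.main8 ε hε
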