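import Mathlib
import Vale.Agent.Results.P057.R4LowerBound
import Vale.Agent.Results.P057.R8LowerBound

/-- Both lower bounds on progression free sets: `k = 4` and `k = 8`. -/
theorem Vale.Agent.Results.P057.A0Conj.result :
    (∀ (ε : ℝ) (_ : 0 < ε), ∀ᶠ N : ℕ in Filter.atTop, ∃ A : Finset ℕ,
      A ⊆ Finset.Icc 1 N ∧
      (∀ a d : ℕ, 0 < d → ¬ ∀ i : ℕ, i < 4 → a + i * d ∈ A) ∧
      (N : ℝ) * Real.exp (-(2 * √(2 * Real.log (9 / 5)) + ε) * √(Real.log N)) ≤ A.card) ∧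
    (∀ (ε : ℝ) (_ : 0 < ε), ∀ᶠ N : ℕ in Filter.atTop, ∃ A : Finset ℕ,
      A ⊆ Finset.Icc 1 N ∧
      (∀ a d : ℕ, 0 < d → ¬ ∀ i : ℕ, i < 8 → a + i * d ∈ A) ∧
      (N : ℝ) * Real.exp (-(3 * (4 * Real.log 2 * Real.log 3) ^ (1 / 3 : ℝ) + ε) *
        (Real.log N) ^ (1 / 3 : ℝ)) ≤ A.card) :=
  ⟨Vale.Agent.Results.P057.R4LowerBound.result, Vale.Agent.Results.P057.R8LowerBound.result⟩
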