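import Mathlib
import Vale.Agent.Lib.P057.Main

/-!
`r_4(N) ≥ N * 2 ^ (-(C + o(1)) * √(log₂ N))` with `C = 2 * √(2 * log₂ (9 / 5)) ≈ 2.6046`.
This beats the constant `2 * √(log₂ (24 / 7)) ≈ 2.6665` that `r_4 ≥ r_3` inherits from
Elsholtz, Hunter, Proske and Sauermann.
-/

theorem Vale.Agent.Results.P057.FourTermLowerBound.result (ε : ℝ) (hε : 0 < ε) :
    ∃ N₀ : ℕ, ∀ N : ℕ, N₀ ≤ N → ∃ A : Finset ℕ, A ⊆ Finset.Icc 1 N ∧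
      (∀ a d : ℕ, 0 < d → ¬ (a ∈ A ∧ a + d ∈ A ∧ a + 2 * d ∈ A ∧ a + 3 * d ∈ A)) ∧
      (N : ℝ) * (2 : ℝ) ^ (-((2 * Real.sqrt (2 * Real.logb 2 (9 / 5)) + ε) *
        Real.sqrt (Real.logb 2 N))) ≤ A.card :=
  Vale.Agent.Lib.P057.main ε hε
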